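import Vale.Agent.P073.PR720.Realise
import Vale.Agent.P073.PT.Spec
import Vale.Agent.P073.MOS.Local
import Vale.Agent.P073.Net.Defs

/-!
# P073, block PLS (parametrised level surfaces): definitions and statements of the blocks

`K` is a locally finite tiling of `Ω` by compact convex polytopes with vertices in `o + ℚ³`
(helper110's decision), `F = {z ∈ Λ | φ z = t}` a rectangular surface (helper338), `h = f⁻¹`.
-/

open Set Metric Topology Filter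

namespace P073.PLS

open Vale.Agent.P073.St (V IsHomeo IsInv)

/-- the points with rational coordinates relative to the origin `o` -/
def Rat3 (o : V) : Set V := {x | ∃ q : Fin 3 → ℚ, ∀ k, x k = o k + q k}

/-- a locally finite tiling of `Ω` by compact convex sets with non-empty interiors -/
structure Tiling (Ω : Set V) where
  /-- index type -/
  I : Type
  /-- the cells -/
  C : I → Set V
  cpt : ∀ i, IsCompact (C i)
  cvx : ∀ i, Convex ℝ (C i)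
  int : ∀ i, (interior (C i)).Nonempty
  cover : ⋃ i, C i = Ω
  lf : PR720.LF C Ω
  dis : ∀ i j, i ≠ j → Disjoint (interior (C i)) (interior (C j))

namespace Tiling

variable {Ω : Set V} (T : Tiling Ω)

/-- the one-skeleton: points in at least three cells -/
def K1 : Set V := {x | ∃ i j k, i ≠ j ∧ i ≠ k ∧ j ≠ k ∧ x ∈ T.C i ∧ x ∈ T.C j ∧ x ∈ T.C k}

/-- two different cells which have a common face -/
def IsFace (i j : T.I) : Prop := i ≠ j ∧ ((T.C i ∩ T.C j) \ T.K1).Nonempty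

/-- `x` lies in the relative interior of the edge with direction `e`: near `x` the one-skeleton is
the line through `x` with direction `e`, part of a rational segment in the one-skeleton, and the
cells are invariant under small translations in this direction. -/
def EdgeAt (o x e : V) : Prop :=
  e ≠ 0 ∧ (∃ r > 0, (∀ y ∈ ball x r, (y ∈ T.K1 ↔ ∃ τ : ℝ, y = x + τ • e)) ∧
    ∀ i, ∀ y ∈ ball x r, ∀ τ : ℝ, y + τ • e ∈ ball x r → y ∈ T.C i → y + τ • e ∈ T.C i) ∧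
  ∃ a ∈ Rat3 o, ∃ b ∈ Rat3 o, ∃ s : ℝ, 0 < s ∧ s < 1 ∧ b - a = e ∧ x = a + s • e ∧
    segment ℝ a b ⊆ T.K1

/-- combinatorial and rationality properties of the tiling -/
structure Good (o : V) : Prop where
  ball3 : ∀ i, ConBall 3 (T.C i) (frontier (T.C i))
  face2 : ∀ i j, T.IsFace i j → ConBall 2 (T.C i ∩ T.C j) (T.C i ∩ T.C j ∩ T.K1)
  /-- the faces are rational polygons, the boundary of a face consists of finitely many rational
  segments -/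
  faceRat : ∀ i j, T.IsFace i j → (∃ s : Finset V, (∀ a ∈ s, a ∈ Rat3 o) ∧
    T.C i ∩ T.C j = convexHull ℝ (s : Set V)) ∧ ∃ u : Finset (V × V),
      (∀ p ∈ u, p.1 ∈ Rat3 o ∧ p.2 ∈ Rat3 o) ∧
      T.C i ∩ T.C j ∩ T.K1 = ⋃ p ∈ u, segment ℝ p.1 p.2
  /-- every point of the one-skeleton is a rational point or in the interior of an edge -/
  edge : ∀ x ∈ T.K1, x ∈ Rat3 o ∨ ∃ e, T.EdgeAt o x e

end Tiling

/-! ### Good levels -/

/-- `t` is a good level of `φ ∘ f` for the rational segments and the rational convex polygons. -/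
structure GoodLevel (Ω : Set V) (f : V → V) (φ : V → ℝ) (o : V) (t : ℝ) : Prop where
  /-- rational points are not on the level -/
  rat : ∀ a ∈ Rat3 o, a ∈ Ω → φ (f a) ≠ t
  /-- finitely many crossings of each rational segment -/
  fin : ∀ a ∈ Rat3 o, ∀ b ∈ Rat3 o, segment ℝ a b ⊆ Ω → {x ∈ segment ℝ a b | φ (f x) = t}.Finite
  /-- with change of sign -/
  sign : ∀ a ∈ Rat3 o, ∀ b ∈ Rat3 o, segment ℝ a b ⊆ Ω → ∀ s : ℝ, 0 < s → s < 1 →
    φ (f (a + s • (b - a))) = t → ∃ σ : ℝ, (σ = 1 ∨ σ = -1) ∧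
      (∀ᶠ τ in 𝓝[>] s, 0 < σ * (φ (f (a + τ • (b - a))) - t)) ∧
      ∀ᶠ τ in 𝓝[<] s, σ * (φ (f (a + τ • (b - a))) - t) < 0
  /-- (R2) -/
  two : ∀ (s : Finset V) (dq : Set V), (∀ a ∈ s, a ∈ Rat3 o) → convexHull ℝ (s : Set V) ⊆ Ω →
    ConBall 2 (convexHull ℝ (s : Set V)) dq →
    (∃ u : Finset (V × V), (∀ p ∈ u, p.1 ∈ Rat3 o ∧ p.2 ∈ Rat3 o) ∧
      dq = ⋃ p ∈ u, segment ℝ p.1 p.2) →
    ∀ Z ⊆ convexHull ℝ (s : Set V), IsPreconnected Z → (∀ z ∈ Z, φ (f z) = t) →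
      (∀ x ∈ Z ∩ dq, ∀ y ∈ Z ∩ dq, ∀ z ∈ Z ∩ dq, x = y ∨ y = z ∨ x = z) ∧
      -- the two crossing points have opposite types
      ∀ x ∈ Z ∩ dq, ∀ y ∈ Z ∩ dq, x ≠ y → ∀ A ⊆ dq, IsPreconnected A → x ∉ A → y ∉ A →
        x ∈ closure A → y ∈ closure A → (∃ᶠ z in 𝓝[A] x, t < φ (f z)) →
        ¬ ∃ᶠ z in 𝓝[A] y, φ (f z) < t

/-- near the flat point `y` of `F = {φ = t}` the function `φ - t` has the sign of a coordinate -/
def SignAt (φ : V → ℝ) (t : ℝ) (y : V) (n : Fin 3) : Prop :=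
  ∃ σ : ℝ, (σ = 1 ∨ σ = -1) ∧ ∃ r > 0, ∀ z ∈ ball y r,
    (φ z = t ↔ z n = y n) ∧ (0 < σ * (φ z - t) ↔ y n < z n)

/-- the surface `F = {z ∈ Λ | φ z = t}` and its position relative to the images of the rational
segments -/
structure Surf (Ω Λ : Set V) (f : V → V) (φ : V → ℝ) (o : V) (t : ℝ) : Prop where
  contφ : ContinuousOn φ Λ
  rect : MOS.RectLocal {z ∈ Λ | φ z = t}
  ncpt : ∀ z ∈ Λ, φ z = t → ¬ IsCompact (connectedComponentIn {z ∈ Λ | φ z = t} z)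
  flat : ∀ a ∈ Rat3 o, ∀ b ∈ Rat3 o, segment ℝ a b ⊆ Ω → ∀ x ∈ segment ℝ a b, φ (f x) = t →
    ∃ n, SignAt φ t (f x) n

/-! ### The statement of the block -/

/-- **PLS** -/
def SpecPLS : Prop :=
  ∀ (Ω Λ : Set V) (f : V → V) (o : V) (φ : V → ℝ) (t : ℝ), IsOpen Ω → IsOpen Λ →
    IsHomeo Ω Λ f → GoodLevel Ω f φ o t → Surf Ω Λ f φ o t →
    ∀ G : Net.Graph Ω, (∀ i, G.a i ∈ Rat3 o ∧ G.b i ∈ Rat3 o) →
    ∀ ε : V → ℝ, ContinuousOn ε Λ → (∀ z ∈ Λ, 0 < ε z) →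
    ∃ (P : Set V) (g : ConHomeo {z ∈ Λ | φ z = t} P), P ⊆ Ω ∧
      (∀ z ∈ Λ, φ z = t → ‖f (g.toFun z) - z‖ < ε z) ∧
      ∀ i, ∀ x ∈ P, x ∈ segment ℝ (G.a i) (G.b i) → φ (f x) = t

/-! ### Sub-blocks -/

/-- **KW** (helper720) -/
def SpecKW : Prop :=
  ∀ (Ω : Set V) (o : V) (G : Net.Graph Ω), IsOpen Ω → (∀ i, G.a i ∈ Rat3 o ∧ G.b i ∈ Rat3 o) →
    ∀ ε : V → ℝ, ContinuousOn ε Ω → (∀ x ∈ Ω, 0 < ε x) →
    ∃ T : Tiling Ω, T.Good o ∧ (∀ i, ∀ x ∈ T.C i, ∀ y ∈ T.C i, dist x y < ε x) ∧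
      ∀ i, segment ℝ (G.a i) (G.b i) ⊆ T.K1

/-- output of the local modification: `g` is close to `h = f⁻¹` on `F`, meets the one-skeleton only
at the points of `Y`, and is linear near these points -/
structure Modif {Ω : Set V} (T : Tiling Ω) (F : Set V) (h : V → V) (Y : Set V) (δ : V → ℝ)
    (g : V → V) (s : V → ℝ) : Prop where
  cont : ContinuousOn g F
  maps : MapsTo g F Ω
  close : ∀ z ∈ F, ‖g z - h z‖ < δ z
  avoid : ∀ z ∈ F, g z ∈ T.K1 → z ∈ Y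
  at_Y : ∀ y ∈ Y, g y = h y
  /-- near `y` the surface is `{z n = y n}`, and `g` is affine and transverse to the edge -/
  lin : ∀ y ∈ Y, 0 < s y ∧ s y < δ y ∧ ∃ (n : Fin 3) (A : V →L[ℝ] V),
    closedBall y (s y) ∩ {z | z n = y n} ⊆ F ∧ F ∩ closedBall y (s y) ⊆ {z | z n = y n} ∧
    (∀ z ∈ F ∩ closedBall y (s y), g z = h y + A (z - y)) ∧
    ∀ w : V, w n = 0 → w ≠ 0 → ∀ᶠ τ in 𝓝[>] (0:ℝ), h y + τ • A w ∉ T.K1
  apart : ∀ y ∈ Y, ∀ y' ∈ Y, y ≠ y' → Disjoint (closedBall y (s y)) (closedBall y' (s y'))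

/-- **G1** (helper86, helper865) -/
def SpecG1 : Prop :=
  ∀ (Ω Λ : Set V) (f h : V → V) (o : V) (φ : V → ℝ) (t : ℝ) (T : Tiling Ω),
    IsOpen Ω → IsOpen Λ → IsInv Ω Λ f h → ContinuousOn f Ω → ContinuousOn h Λ →
    GoodLevel Ω f φ o t → Surf Ω Λ f φ o t → T.Good o →
    ∀ δ : V → ℝ, ContinuousOn δ {z ∈ Λ | φ z = t} → (∀ z ∈ Λ, φ z = t → 0 < δ z) →
    ∃ (g : V → V) (s : V → ℝ),
      Modif T {z ∈ Λ | φ z = t} h {z ∈ Λ | φ z = t ∧ h z ∈ T.K1} δ g s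

/-- a fine mosaic with special star-shaped cells of size `s y` around the points `y ∈ Y` -/
structure SpMosaic (F Y : Set V) (s ε : V → ℝ) (W : Type) (R bd : W → Set V) (sp : V → W) :
    Prop where
  mos : Mosaic F R bd
  /-- all vertices have valence three -/
  val3 : ∀ p m, ∀ c : ZMod m → W, LinkCycle R p m c → m = 3
  inj : InjOn sp Y
  /-- the special cells contain the middle square and lie in the square of half side `s y` -/
  lo : ∀ y ∈ Y, F ∩ closedBall y (s y / 2) ⊆ R (sp y)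
  hi : ∀ y ∈ Y, R (sp y) ⊆ closedBall y (s y)
  /-- they are star-shaped -/
  star : ∀ y ∈ Y, ∀ x ∈ R (sp y), ∀ τ : ℝ, 0 ≤ τ → τ < 1 →
    y + τ • (x - y) ∈ R (sp y) \ bd (sp y)
  /-- the other cells are small -/
  fine : ∀ v, v ∉ sp '' Y → ∀ x ∈ R v, ∀ x' ∈ R v, dist x x' < ε x
  /-- special cells do not meet -/
  apart : ∀ y ∈ Y, ∀ y' ∈ Y, y ≠ y' → Disjoint (R (sp y)) (R (sp y'))

/-- **MOS** (helper338), with special cells of given size and a ring of small neighbours -/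
def SpecMos : Prop :=
  ∀ F : Set V, MOS.RectLocal F → F.Nonempty → ∀ Y ⊆ F,
    (∀ z ∈ F, ∃ U ∈ 𝓝 z, (Y ∩ U).Finite) → ∀ s : V → ℝ,
    (∀ y ∈ Y, 0 < s y ∧ ∃ n : Fin 3, closedBall y (2 * s y) ∩ {z | z n = y n} ⊆ F ∧
      F ∩ closedBall y (2 * s y) ⊆ {z | z n = y n}) →
    (∀ y ∈ Y, ∀ y' ∈ Y, y ≠ y' → Disjoint (closedBall y (2 * s y)) (closedBall y' (2 * s y'))) →
    ∀ ε : V → ℝ, ContinuousOn ε F → (∀ z ∈ F, 0 < ε z) →
    ∃ (W : Type) (R bd : W → Set V) (sp : V → W), SpMosaic F Y s ε W R bd sp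

/-- A labelled mosaic: the input of PT. `L v` is a cell of the tiling close to `h (R v)`. -/
structure LabMos {Ω : Set V} (T : Tiling Ω) (F Y : Set V) (h : V → V) (η : V → ℝ) (W : Type)
    (R bd : W → Set V) (L : W → T.I) : Prop where
  mos : Mosaic F R bd
  good : GoodLabels R L
  /-- three labels meet only at the points of `Y` -/
  tri : ∀ p u v w, p ∈ R u → p ∈ R v → p ∈ R w → L u ≠ L v → L u ≠ L w → L v ≠ L w → p ∈ Y
  /-- the labels at `p ∈ Y` are the cells at `h p` -/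
  atY : ∀ p ∈ Y, ∀ i, (∃ v, p ∈ R v ∧ L v = i) ↔ h p ∈ T.C i
  /-- different cells at `p ∈ Y` have different labels -/
  injY : ∀ p ∈ Y, ∀ v w, p ∈ R v → p ∈ R w → L v = L w → v = w
  /-- neighbours have labels which share a face -/
  face : ∀ v w, (R v ∩ R w).Nontrivial → L v ≠ L w → T.IsFace (L v) (L w)
  near : ∀ v, ∀ z ∈ R v, ∃ x ∈ T.C (L v), dist (h z) x < η z
  small : ∀ v, ∀ z ∈ R v, ∀ z' ∈ R v, dist z z' < η z

/-- **LAB + SUBDIV** (helper865, helper773): labels by a modified map on a fine mosaic, special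
cells cut into sectors by `PT.SpecSubdiv`. -/
def SpecLab : Prop :=
  ∀ (Ω F : Set V) (o : V) (T : Tiling Ω) (h : V → V) (Y : Set V), IsOpen Ω → T.Good o →
    Y = {z ∈ F | h z ∈ T.K1} → ContinuousOn h F → MapsTo h F Ω → (∀ z ∈ F, h z ∉ Rat3 o) →
    (∀ z ∈ F, ∃ U ∈ 𝓝 z, (Y ∩ U).Finite) →
    ∀ η : V → ℝ, ContinuousOn η F → (∀ z ∈ F, 0 < η z) →
    ∃ δ : V → ℝ, ContinuousOn δ F ∧ (∀ z ∈ F, 0 < δ z) ∧
    ∀ (g : V → V) (s : V → ℝ), Modif T F h Y δ g (fun y => 2 * s y) →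
    ∃ ε : V → ℝ, ContinuousOn ε F ∧ (∀ z ∈ F, 0 < ε z) ∧
    ∀ (W : Type) (R bd : W → Set V) (sp : V → W), SpMosaic F Y s ε W R bd sp →
    ∃ (W' : Type) (R' bd' : W' → Set V) (L : W' → T.I), LabMos T F Y h η W' R' bd' L

end P073.PLS
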