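import Mathlib.Topology.MetricSpace.Basic
import Mathlib.Topology.Algebra.Order.LiminfLimsup
import Mathlib.Topology.MetricSpace.Thickening

/-!
# P073, block PLS: small Lipschitz functions
-/

open Set Metric Topology Filter

namespace P073.PLS

/-- A property `P x c` of the points `x` of `F` and the small numbers `c`, which holds locally
uniformly, holds for a positive Lipschitz function. -/
theorem exists_lip {X : Type*} [PseudoMetricSpace X] (F : Set X) (P : X → ℝ → Prop) {L : ℝ}
    (hL : 0 < L) (hL1 : L ≤ 1) (mono : ∀ x c c', 0 < c' → c' ≤ c → P x c → P x c')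
    (loc : ∀ z ∈ F, ∃ c > 0, ∀ x ∈ F, dist x z < c → P x c) :
    ∃ κ : X → ℝ, (∀ x y, |κ x - κ y| ≤ L * dist x y) ∧ Continuous κ ∧ (∀ x, 0 ≤ κ x) ∧
      (∀ x, κ x ≤ 1) ∧ ∀ z ∈ F, 0 < κ z ∧ P z (κ z) := by
  classical
  let A : X → Set ℝ := fun z => {c | 0 ≤ c ∧ c ≤ 1 ∧ ∀ x ∈ F, dist x z < c → P x c}
  have hA0 : ∀ z, (0:ℝ) ∈ A z := fun z =>
    ⟨le_rfl, zero_le_one, fun x _ h => absurd h (not_lt.2 dist_nonneg)⟩
  have hbdd : ∀ z, BddAbove (A z) := fun z => ⟨1, fun c hc => hc.2.1⟩
  let κ₁ : X → ℝ := fun z => sSup (A z)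
  have h0 : ∀ z, 0 ≤ κ₁ z := fun z => le_csSup (hbdd z) (hA0 z)
  have h1 : ∀ z, κ₁ z ≤ 1 := fun z => csSup_le ⟨0, hA0 z⟩ fun c hc => hc.2.1
  have hlip : ∀ x y, κ₁ x ≤ κ₁ y + dist x y := by
    intro x y
    refine csSup_le ⟨0, hA0 x⟩ ?_
    intro c hc
    rcases le_or_gt c (dist x y) with h | h
    · linarith [h0 y]
    · have : c - dist x y ∈ A y := by
        refine ⟨by linarith, by linarith [hc.2.1, dist_nonneg (x := x) (y := y)], ?_⟩
        intro z hz hzy
        have h2 : dist z x < c := by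
          have := dist_triangle z y x
          rw [dist_comm y x] at this
          linarith
        exact mono z c _ (by linarith) (by linarith [dist_nonneg (x := x) (y := y)])
          (hc.2.2 z hz h2)
      have := le_csSup (hbdd y) this
      show c ≤ sSup (A y) + dist x y
      linarith
  refine ⟨fun z => L * (κ₁ z / 2), ?_, ?_, ?_, ?_, ?_⟩
  · intro x y
    have e1 := hlip x y
    have e2 := hlip y x
    rw [dist_comm y x] at e2
    rw [← mul_sub, abs_mul, abs_of_pos hL]
    refine mul_le_mul_of_nonneg_left ?_ hL.le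
    rw [abs_le]
    constructor <;> linarith [dist_nonneg (x := x) (y := y)]
  · have hc : Continuous κ₁ := by
      refine Metric.continuous_iff.2 ?_
      intro b ε hε
      refine ⟨ε, hε, fun a hab => ?_⟩
      have e1 := hlip a b
      have e2 := hlip b a
      rw [dist_comm b a] at e2
      rw [Real.dist_eq, abs_lt]
      constructor <;> linarith
    exact (hc.div_const 2).const_mul L
  · intro x
    have := h0 x
    positivity
  · intro x
    have a := h0 x
    have b := h1 x
    nlinarith
  · intro z hz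
    obtain ⟨c, hc, hP⟩ := loc z hz
    have hmem : min c 1 ∈ A z := by
      refine ⟨le_min hc.le zero_le_one, min_le_right _ _, ?_⟩
      intro x hx hxz
      exact mono x c _ (lt_min hc one_pos) (min_le_left _ _)
        (hP x hx (lt_of_lt_of_le hxz (min_le_left _ _)))
    have hpos : 0 < κ₁ z := lt_of_lt_of_le (lt_min hc one_pos) (le_csSup (hbdd z) hmem)
    have hpos' : 0 < L * (κ₁ z / 2) := by positivity
    refine ⟨hpos', ?_⟩
    obtain ⟨d, hd, hd2⟩ := exists_lt_of_lt_csSup ⟨0, hA0 z⟩ (half_lt_self hpos)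
    refine mono z d _ hpos' ?_ (hd.2.2 z hz (by rw [dist_self]; linarith))
    have : L * (κ₁ z / 2) ≤ 1 * (κ₁ z / 2) := by
      apply mul_le_mul_of_nonneg_right hL1; linarith
    linarith

end P073.PLS
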