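import Vale.Agent.P073.PLS.Defs
import Mathlib.Analysis.Convex.Topology

/-!
# P073, block PLS: elementary facts about tilings
-/

open Set Metric Topology Filter

namespace P073.PLS

open Vale.Agent.P073.St (V IsHomeo IsInv)

namespace Tiling

variable {Ω : Set V} (T : Tiling Ω)

theorem sub (i : T.I) : T.C i ⊆ Ω := (subset_iUnion T.C i).trans T.cover.subset

theorem closed (i : T.I) : IsClosed (T.C i) := (T.cpt i).isClosed

theorem closure_int (i : T.I) : T.C i ⊆ closure (interior (T.C i)) := by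
  rw [(T.cvx i).closure_interior_eq_closure_of_nonempty_interior (T.int i)]
  exact subset_closure

theorem inter_subset_frontier {i j : T.I} (hij : i ≠ j) : T.C i ∩ T.C j ⊆ frontier (T.C i) := by
  rintro x ⟨hi, hj⟩
  rw [(T.closed i).frontier_eq]
  refine ⟨hi, fun hint => ?_⟩
  have h1 := T.closure_int j hj
  rw [_root_.mem_closure_iff] at h1
  obtain ⟨y, hy, hy'⟩ := h1 _ isOpen_interior hint
  exact (Set.disjoint_left.1 (T.dis i j hij)) hy hy'

theorem exists_cell {x : V} (hx : x ∈ Ω) : ∃ i, x ∈ T.C i := by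
  rw [← T.cover] at hx
  exact mem_iUnion.1 hx

/-- a point of the one-skeleton lies in the frontier of each cell which contains it -/
theorem K1_frontier {i : T.I} {x : V} (hx : x ∈ T.K1) (hi : x ∈ T.C i) :
    x ∈ frontier (T.C i) := by
  obtain ⟨a, b, c, hab, hac, hbc, ha, hb, hc⟩ := hx
  by_cases h : a = i
  · subst h
    exact T.inter_subset_frontier hab ⟨ha, hb⟩
  · exact T.inter_subset_frontier (Ne.symm h) ⟨hi, ha⟩

theorem mem_K1 {i j k : T.I} {x : V} (hij : i ≠ j) (hik : i ≠ k) (hjk : j ≠ k) (hi : x ∈ T.C i)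
    (hj : x ∈ T.C j) (hk : x ∈ T.C k) : x ∈ T.K1 := ⟨i, j, k, hij, hik, hjk, hi, hj, hk⟩

theorem K1_sub : T.K1 ⊆ Ω := by
  rintro x ⟨a, _, _, _, _, _, ha, _, _⟩
  exact T.sub a ha

variable {T} in
theorem IsFace.symm {i j : T.I} (h : T.IsFace i j) : T.IsFace j i := by
  obtain ⟨h1, h2⟩ := h
  exact ⟨h1.symm, by rwa [inter_comm]⟩

/-- unordered pairs of cells with a common face -/
def Fc : Type := {s : Set T.I // ∃ i j, T.IsFace i j ∧ s = {i, j}}

/-- the face -/
def q (s : T.Fc) : Set V := ⋂ i ∈ s.1, T.C i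

/-- its boundary -/
def dq (s : T.Fc) : Set V := T.q s ∩ T.K1

theorem q_pair (s : T.Fc) {i j : T.I} (h : s.1 = {i, j}) : T.q s = T.C i ∩ T.C j := by
  rw [q, h, biInter_pair]

theorem q_inter_C (s : T.Fc) (i : T.I) : T.q s ∩ T.C i ⊆ frontier (T.C i) := by
  obtain ⟨a, b, hab, hs⟩ := s.2
  rw [T.q_pair s hs]
  rintro x ⟨⟨ha, hb⟩, hi⟩
  by_cases h : a = i
  · subst h; exact T.inter_subset_frontier hab.1 ⟨ha, hb⟩
  · exact T.inter_subset_frontier (Ne.symm h) ⟨hi, ha⟩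

theorem q_inter_q (s s' : T.Fc) (h : s ≠ s') : T.q s ∩ T.q s' ⊆ T.dq s := by
  obtain ⟨a, b, hab, hs⟩ := s.2
  obtain ⟨a', b', hab', hs'⟩ := s'.2
  have hne : ({a, b} : Set T.I) ≠ {a', b'} := fun e => h (Subtype.ext (hs.trans (e.trans hs'.symm)))
  rintro x ⟨hx, hx'⟩
  refine ⟨hx, ?_⟩
  rw [T.q_pair s hs] at hx
  rw [T.q_pair s' hs'] at hx'
  by_cases h1 : a' = a ∨ a' = b
  · by_cases h2 : b' = a ∨ b' = b
    · exfalso
      apply hne
      rcases h1 with rfl | rfl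
      · rcases h2 with rfl | rfl
        · exact absurd rfl hab'.1
        · rfl
      · rcases h2 with rfl | rfl
        · exact pair_comm _ _
        · exact absurd rfl hab'.1
    · rw [not_or] at h2
      exact T.mem_K1 hab.1 (Ne.symm h2.1) (Ne.symm h2.2) hx.1 hx.2 hx'.2
  · rw [not_or] at h1
    exact T.mem_K1 hab.1 (Ne.symm h1.1) (Ne.symm h1.2) hx.1 hx.2 hx'.1

theorem finite_meet {K : Set V} (hK : IsCompact K) (hKΩ : K ⊆ Ω) :
    {i | (T.C i ∩ K).Nonempty}.Finite := by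
  choose! U hU hUfin using T.lf
  obtain ⟨t, ht, hcov⟩ := hK.elim_nhds_subcover U fun z hz => hU z (hKΩ hz)
  refine (t.finite_toSet.biUnion fun z hz => hUfin z (hKΩ (ht z hz))).subset ?_
  rintro v ⟨z, hz, hzK⟩
  obtain ⟨x, hx, hzx⟩ := mem_iUnion₂.1 (hcov hzK)
  exact mem_biUnion hx ⟨z, hz, hzx⟩

end Tiling

end P073.PLS
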