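import Vale.Agent.P073.PRT483.Prod
import Vale.Agent.P073.PT.Mosaic
import Vale.Agent.P073.IoD
import Vale.Agent.P073.PLS.Defs

/-!
# P073, block PLS: collars are open

If `F` is a surface (`SmallDiscs F`), then every conical embedding of `F × [-1,1]` in three-space
maps `F × (-1,1)` onto an open set: invariance of domain.
-/

open Set Metric Topology Filter

namespace P073.PLS

open Vale.Agent.P073.St (V)

theorem isOpen_collar {F : Set V} (hSD : SmallDiscs F) {N : Set V}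
    (κ : ConHomeo (F ×ˢ Icc (-1 : ℝ) 1) N) : IsOpen (κ.toFun '' (F ×ˢ Ioo (-1 : ℝ) 1)) := by
  rw [isOpen_iff_mem_nhds]
  rintro _ ⟨⟨z, t⟩, ⟨hz, ht⟩, rfl⟩
  obtain ⟨D, B, ⟨⟨hBD, φ, hφ⟩, hDF, -⟩, ⟨hzD, hzB⟩, -⟩ := hSD z hz 1 one_pos
  -- the chart
  let L := snocCLE 2
  let U : Set (Fin 3 → ℝ) := L.symm ⁻¹' (ball (0 : Fin 2 → ℝ) 1 ×ˢ Ioo (-1 : ℝ) 1)
  have hU : IsOpen U := (isOpen_ball.prod isOpen_Ioo).preimage L.symm.continuous
  let m : (Fin 3 → ℝ) → V × ℝ := fun u => (φ.invFun (L.symm u).1, (L.symm u).2)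
  have hmaps : ∀ u ∈ U, m u ∈ F ×ˢ Icc (-1 : ℝ) 1 := fun u hu =>
    ⟨hDF (φ.mapsTo_inv (ball_subset_closedBall hu.1)), Ioo_subset_Icc_self hu.2⟩
  have hmc : ContinuousOn m U := by
    refine ContinuousOn.prodMk ?_ (continuous_snd.comp L.symm.continuous).continuousOn
    exact φ.cont_inv.comp (continuous_fst.comp L.symm.continuous).continuousOn
      fun u hu => ball_subset_closedBall hu.1
  have hmi : InjOn m U := by
    intro u hu v hv huv
    have h1 : φ.invFun (L.symm u).1 = φ.invFun (L.symm v).1 := congrArg (fun p : V × ℝ => p.1) huv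
    have h2 : (L.symm u).2 = (L.symm v).2 := congrArg (fun p : V × ℝ => p.2) huv
    have h3 : (L.symm u).1 = (L.symm v).1 := by
      rw [← φ.right_inv (ball_subset_closedBall hu.1), h1,
        φ.right_inv (ball_subset_closedBall hv.1)]
    exact L.symm.injective (Prod.ext h3 h2)
  have hopen : IsOpen ((κ.toFun ∘ m) '' U) :=
    Vale.Agent.P073.Sep.isOpen_image_of_injOn hU (κ.cont.comp hmc hmaps)
      (κ.injOn.comp hmi hmaps)
  refine mem_of_superset (hopen.mem_nhds ?_) ?_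
  · -- the point
    have hφz : φ.toFun z ∈ ball (0 : Fin 2 → ℝ) 1 := by
      have h1 : φ.toFun z ∈ closedBall (0 : Fin 2 → ℝ) 1 := φ.mapsTo hzD
      rw [mem_closedBall_zero_iff] at h1
      rw [mem_ball_zero_iff]
      refine lt_of_le_of_ne h1 fun he => hzB ?_
      have h2 : φ.toFun z ∈ φ.toFun '' B := by rw [hφ, mem_sphere_zero_iff_norm]; exact he
      obtain ⟨w, hw, hwz⟩ := h2
      rwa [← φ.injOn (hBD hw) hzD hwz]
    have hLs : L.symm (L (φ.toFun z, t)) = (φ.toFun z, t) := L.symm_apply_apply _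
    refine ⟨L (φ.toFun z, t), ?_, ?_⟩
    · show L.symm (L (φ.toFun z, t)) ∈ ball (0 : Fin 2 → ℝ) 1 ×ˢ Ioo (-1 : ℝ) 1
      rw [hLs]
      exact ⟨hφz, ht⟩
    · show κ.toFun (φ.invFun (L.symm (L (φ.toFun z, t))).1, (L.symm (L (φ.toFun z, t))).2) = _
      rw [hLs]
      show κ.toFun (φ.invFun (φ.toFun z), t) = κ.toFun (z, t)
      rw [φ.left_inv hzD]
  · rintro _ ⟨u, hu, rfl⟩
    exact ⟨m u, ⟨(hmaps u hu).1, hu.2⟩, rfl⟩

end P073.PLS
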