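import Vale.Agent.P073.PLS.Facts
import Vale.Agent.P073.PLS.Lip

/-!
# P073, block PLS: choice of the sizes
-/

open Set Metric Topology Filter

namespace P073.PLS

open Vale.Agent.P073.St (V IsHomeo IsInv)

/-- Step A: a small Lipschitz function `θ` on `Λ` -/
theorem exists_theta {Λ : Set V} (hΛ : IsOpen Λ) {ε : V → ℝ} (hε : ContinuousOn ε Λ)
    (hpos : ∀ z ∈ Λ, 0 < ε z) :
    ∃ θ : V → ℝ, (∀ x y, |θ x - θ y| ≤ (1 / 10) * dist x y) ∧ Continuous θ ∧ (∀ x, 0 ≤ θ x) ∧
      ∀ z ∈ Λ, 0 < θ z ∧ ∀ z', dist z' z < 4 * θ z → z' ∈ Λ ∧ θ z < ε z' := by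
  obtain ⟨θ, h1, h2, h3, -, h4⟩ := exists_lip (X := V) Λ
    (fun z c => ∀ z', dist z' z < 4 * c → z' ∈ Λ ∧ c < ε z') (L := 1 / 10) (by norm_num)
    (by norm_num)
    (by
      intro x c c' hc' hcc hP z' hz'
      obtain ⟨a, b⟩ := hP z' (by linarith)
      exact ⟨a, by linarith⟩)
    (by
      intro z hz
      have h1 : ∀ᶠ z' in 𝓝 z, z' ∈ Λ ∧ ε z / 2 < ε z' := by
        have h2 : ∀ᶠ z' in 𝓝 z, ε z / 2 < ε z' := by
          have := (hε.continuousAt (hΛ.mem_nhds hz)).eventually_const_lt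
            (show ε z / 2 < ε z by linarith [hpos z hz])
          exact this
        exact Filter.Eventually.and (hΛ.mem_nhds hz) h2
      obtain ⟨r, hr, hball⟩ := Metric.eventually_nhds_iff.1 h1
      have hεz := hpos z hz
      refine ⟨min (r / 8) (ε z / 4), lt_min (by linarith) (by linarith), ?_⟩
      intro x _ hxz z' hz'
      have e1 := min_le_left (r / 8) (ε z / 4)
      have e2 := min_le_right (r / 8) (ε z / 4)
      have e3 := dist_triangle z' x z
      obtain ⟨a, b⟩ := hball (y := z') (by linarith)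
      exact ⟨a, by linarith⟩)
  exact ⟨θ, h1, h2, h3, h4⟩

/-- Step B: a Lebesgue number function for small discs of the surface `F` -/
theorem exists_kappa {Λ F : Set V} (hFcl : ∀ z ∈ Λ, z ∉ F → ∃ r > 0, Disjoint (ball z r) F)
    (hsd : SmallDiscs F) {θ : V → ℝ} (hθ : ∀ x y, |θ x - θ y| ≤ (1 / 10) * dist x y)
    (hθpos : ∀ z ∈ Λ, 0 < θ z) :
    ∃ κ : V → ℝ, (∀ x y, |κ x - κ y| ≤ (1 / 10) * dist x y) ∧ Continuous κ ∧ (∀ x, 0 ≤ κ x) ∧
      ∀ z ∈ Λ, 0 < κ z ∧ κ z ≤ θ z ∧ (z ∈ F → ∃ D B, SurfDisc F D B ∧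
        F ∩ ball z (κ z) ⊆ D \ B ∧ D ⊆ ball z (θ z)) := by
  obtain ⟨κ, h1, h2, h3, -, h4⟩ := exists_lip (X := V) Λ
    (fun z c => c ≤ θ z ∧ (z ∈ F → ∃ D B, SurfDisc F D B ∧
        F ∩ ball z c ⊆ D \ B ∧ D ⊆ ball z (θ z))) (L := 1 / 10) (by norm_num)
    (by norm_num)
    (by
      rintro x c c' hc' hcc ⟨hP, hP'⟩
      refine ⟨hcc.trans hP, fun hx => ?_⟩
      obtain ⟨D, B, d1, d2, d3⟩ := hP' hx
      exact ⟨D, B, d1, (inter_subset_inter_right _ (ball_subset_ball hcc)).trans d2, d3⟩)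
    (by
      intro z hz
      have hθz := hθpos z hz
      have hle : ∀ x c, dist x z < c → c ≤ θ z / 2 → c ≤ θ x := by
        intro x c hxz hc
        have := (abs_le.1 (hθ x z)).1
        linarith
      by_cases hzF : z ∈ F
      · obtain ⟨D, B, hD, hzD, hDs⟩ := hsd z hzF (θ z / 4) (by linarith)
        obtain ⟨hb, hDF, U, hU, hDU⟩ := hD
        have hzU : z ∈ U := by
          have : z ∈ F ∩ U := hDU ▸ hzD
          exact this.2
        obtain ⟨r, hr, hball⟩ := Metric.isOpen_iff.1 hU z hzU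
        refine ⟨min (r / 2) (θ z / 10), lt_min (by linarith) (by linarith), ?_⟩
        intro x _ hxz
        have e1 := min_le_left (r / 2) (θ z / 10)
        have e2 := min_le_right (r / 2) (θ z / 10)
        refine ⟨hle x _ hxz (by linarith), fun _ => ⟨D, B, ⟨hb, hDF, U, hU, hDU⟩, ?_, ?_⟩⟩
        · rintro w ⟨hwF, hw⟩
          rw [hDU]
          refine ⟨hwF, hball ?_⟩
          rw [mem_ball] at hw ⊢
          have := dist_triangle w x z
          linarith
        · intro w hw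
          have := hDs hw
          rw [mem_ball] at this ⊢
          have h5 := dist_triangle w z x
          rw [dist_comm z x] at h5
          have h6 := (abs_le.1 (hθ x z)).1
          linarith
      · obtain ⟨r, hr, hdis⟩ := hFcl z hz hzF
        refine ⟨min r (θ z / 2), lt_min hr (by linarith), ?_⟩
        intro x _ hxz
        have e1 := min_le_left r (θ z / 2)
        have e2 := min_le_right r (θ z / 2)
        refine ⟨hle x _ hxz e2, fun hxF => ?_⟩
        exact absurd hxF (Set.disjoint_left.1 hdis (by rw [mem_ball]; linarith)))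
  exact ⟨κ, h1, h2, h3, fun z hz => h4 z hz⟩

/-- Step C: modulus of continuity of a map on an open set -/
theorem exists_mu {Ω : Set V} (hΩ : IsOpen Ω) {f : V → V} (hf : ContinuousOn f Ω) {κ : V → ℝ}
    (hκ : Continuous κ) (hpos : ∀ x ∈ Ω, 0 < κ (f x)) :
    ∃ μ : V → ℝ, Continuous μ ∧ (∀ x, 0 ≤ μ x) ∧ ∀ x ∈ Ω, 0 < μ x ∧ ∀ x', dist x x' < μ x →
      x' ∈ Ω ∧ dist (f x) (f x') < κ (f x) / 100 := by
  obtain ⟨μ, -, h2, h3, -, h4⟩ := exists_lip (X := V) Ω
    (fun x c => ∀ x', dist x x' < c → x' ∈ Ω ∧ dist (f x) (f x') < κ (f x) / 100) (L := 1)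
    one_pos le_rfl
    (by
      intro x c c' _ hcc hP x' hx'
      exact hP x' (by linarith))
    (by
      intro z hz
      have hp := hpos z hz
      have hc : ContinuousAt f z := hf.continuousAt (hΩ.mem_nhds hz)
      have h1 : ∀ᶠ x in 𝓝 z, x ∈ Ω ∧ dist (f x) (f z) < κ (f z) / 400 ∧ κ (f z) / 2 < κ (f x) := by
        refine Filter.Eventually.and (hΩ.mem_nhds hz) ?_
        refine Filter.Eventually.and ?_ ?_
        · exact hc.eventually (Metric.ball_mem_nhds _ (by linarith))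
        · exact (hκ.continuousAt.comp hc).eventually_const_lt
            (show κ (f z) / 2 < κ (f z) by linarith)
      obtain ⟨r, hr, hball⟩ := Metric.eventually_nhds_iff.1 h1
      refine ⟨r / 2, by linarith, ?_⟩
      intro x _ hxz x' hx'
      obtain ⟨a1, a2, a3⟩ := hball (y := x) (by linarith)
      obtain ⟨b1, b2, b3⟩ := hball (y := x') (by
        have := dist_triangle x' x z
        rw [dist_comm x' x] at this
        linarith)
      refine ⟨b1, ?_⟩
      have := dist_triangle (f x) (f z) (f x')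
      rw [dist_comm (f z) (f x')] at this
      linarith)
  exact ⟨μ, h2, h3, h4⟩

/-- Step D: closeness of the labels; `δ i j` are prescribed numbers for the faces -/
theorem exists_eta {Ω Λ F : Set V} (hΩ : IsOpen Ω) (T : Tiling Ω) {f h : V → V}
    (hinv : IsInv Ω Λ f h) (hf : ContinuousOn f Ω) (hh : ContinuousOn h F) (hFΛ : F ⊆ Λ)
    {κ : V → ℝ} (hκ : Continuous κ) (hpos : ∀ z ∈ F, 0 < κ z) (δ : T.I → T.I → ℝ)
    (hδ : ∀ i j, 0 < δ i j) :
    ∃ η : V → ℝ, Continuous η ∧ (∀ x, 0 ≤ η x) ∧ ∀ z ∈ F, 0 < η z ∧ η z ≤ κ z / 100 ∧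
      (∀ x, dist (h z) x < η z → x ∈ Ω ∧ dist z (f x) < κ z / 100) ∧
      ∀ i j, (∃ x ∈ T.C i, dist (h z) x < η z) → (∃ x ∈ T.C j, dist (h z) x < η z) →
        η z ≤ δ i j := by
  obtain ⟨η, -, h2, h3, -, h4⟩ := exists_lip (X := V) F
    (fun z c => c ≤ κ z / 100 ∧ (∀ x, dist (h z) x < c → x ∈ Ω ∧ dist z (f x) < κ z / 100) ∧
      ∀ i j, (∃ x ∈ T.C i, dist (h z) x < c) → (∃ x ∈ T.C j, dist (h z) x < c) →
        c ≤ δ i j) (L := 1) one_pos le_rfl
    (by
      rintro z c c' _ hcc ⟨P1, P2, P3⟩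
      refine ⟨hcc.trans P1, fun x hx => P2 x (by linarith), ?_⟩
      rintro i j ⟨x, hx, hxc⟩ ⟨y, hy, hyc⟩
      exact hcc.trans (P3 i j ⟨x, hx, by linarith⟩ ⟨y, hy, by linarith⟩))
    (by
      intro z hz
      have hp := hpos z hz
      have hzΛ := hFΛ hz
      have hhz : h z ∈ Ω := (hinv.2 z hzΛ).1
      have hfh : f (h z) = z := (hinv.2 z hzΛ).2
      -- local finiteness
      obtain ⟨U, hU, hfin⟩ := T.lf (h z) hhz
      have hc : ContinuousAt f (h z) := hf.continuousAt (hΩ.mem_nhds hhz)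
      have h1 : ∀ᶠ x in 𝓝 (h z), x ∈ U ∧ x ∈ Ω ∧ dist (f x) z < κ z / 400 := by
        refine Filter.Eventually.and hU (Filter.Eventually.and (hΩ.mem_nhds hhz) ?_)
        have := hc.eventually (Metric.ball_mem_nhds (f (h z)) (show 0 < κ z / 400 by linarith))
        rw [hfh] at this
        exact this
      obtain ⟨r, hr, hball⟩ := Metric.eventually_nhds_iff.1 h1
      -- a lower bound for the finitely many `δ i j`
      obtain ⟨d, hd, hdle⟩ : ∃ d > 0, ∀ i ∈ {i | (T.C i ∩ U).Nonempty},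
          ∀ j ∈ {i | (T.C i ∩ U).Nonempty}, d ≤ δ i j := by
        have hfin2 := (hfin.prod hfin)
        have := hfin2.exists_minimalFor (fun p : T.I × T.I => δ p.1 p.2)
        rcases Set.eq_empty_or_nonempty {i | (T.C i ∩ U).Nonempty} with he | ⟨i0, hi0⟩
        · refine ⟨1, one_pos, fun i hi => ?_⟩
          rw [he] at hi
          exact absurd hi (notMem_empty i)
        · obtain ⟨p, hp, hmin⟩ := Set.exists_min_image
            ({i | (T.C i ∩ U).Nonempty} ×ˢ {i | (T.C i ∩ U).Nonempty})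
            (fun p : T.I × T.I => δ p.1 p.2) hfin2 ⟨(i0, i0), hi0, hi0⟩
          exact ⟨_, hδ p.1 p.2, fun i hi j hj => hmin (i, j) ⟨hi, hj⟩⟩
      -- continuity of `h` and `κ` at `z`
      have h5 : ∀ᶠ x in 𝓝[F] z, dist (h x) (h z) < r / 2 :=
        (hh z hz).eventually (Metric.ball_mem_nhds _ (by linarith))
      have h6 : ∀ᶠ x in 𝓝[F] z, κ z / 2 < κ x :=
        nhdsWithin_le_nhds (hκ.continuousAt.eventually_const_lt (show κ z / 2 < κ z by linarith))
      obtain ⟨s, hs, hs'⟩ := Metric.mem_nhdsWithin_iff.1 (h5.and h6)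
      refine ⟨min (min (r / 2) d) (min s (κ z / 400)), by positivity, ?_⟩
      intro x hxF hxz
      have e1 : min (min (r / 2) d) (min s (κ z / 400)) ≤ r / 2 :=
        (min_le_left _ _).trans (min_le_left _ _)
      have e2 : min (min (r / 2) d) (min s (κ z / 400)) ≤ d :=
        (min_le_left _ _).trans (min_le_right _ _)
      have e3 : min (min (r / 2) d) (min s (κ z / 400)) ≤ s :=
        (min_le_right _ _).trans (min_le_left _ _)
      have e4 : min (min (r / 2) d) (min s (κ z / 400)) ≤ κ z / 400 :=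
        (min_le_right _ _).trans (min_le_right _ _)
      set c := min (min (r / 2) d) (min s (κ z / 400)) with hcdef
      obtain ⟨g1, g2⟩ : dist (h x) (h z) < r / 2 ∧ κ z / 2 < κ x :=
        hs' ⟨by rw [mem_ball]; linarith, hxF⟩
      have key : ∀ y, dist (h x) y < c → y ∈ U ∧ y ∈ Ω ∧ dist (f y) z < κ z / 400 := by
        intro y hy
        refine hball (y := y) ?_
        have := dist_triangle y (h x) (h z)
        rw [dist_comm y (h x)] at this
        linarith
      refine ⟨by linarith, ?_, ?_⟩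
      · intro y hy
        obtain ⟨k1, k2, k3⟩ := key y hy
        refine ⟨k2, ?_⟩
        have := dist_triangle x z (f y)
        rw [dist_comm z (f y)] at this
        linarith
      · rintro i j ⟨y, hy, hyc⟩ ⟨y', hy', hyc'⟩
        exact e2.trans (hdle i ⟨y, hy, (key y hyc).1⟩ j ⟨y', hy', (key y' hyc').1⟩))
  exact ⟨η, h2, h3, h4⟩

end P073.PLS
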